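import Mathlib
import Vale.Agent.Lib.P015.Final

/-!
Almost all Gaussian primes lie on no long simple path of the moat graph, and a moat exists
after deleting very few Gaussian primes.
-/

open Vale.Agent.Lib.P015 in
theorem Vale.Agent.Results.P015.A_main.result (D : ℝ) (hD : 0 < D) :
    ∃ c : ℝ, 0 < c ∧ ∃ R₀ : ℕ, ∀ R : ℕ, R₀ ≤ R →
      (∀ F : Finset {z : GaussianInt // Irreducible z},
        (∀ z ∈ F, z.1.re ^ 2 + z.1.im ^ 2 ≤ (R : ℤ) ^ 2 ∧
          ∃ (w : {z : GaussianInt // Irreducible z}) (p : (moatGraph D).Walk z w),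
            p.IsPath ∧ c * Real.log R / Real.log (Real.log R) ≤ p.length) →
        (F.card : ℝ) ≤ (R : ℝ) ^ 2 * Real.exp (-(c * Real.log R / Real.log (Real.log R)))) ∧
      (∀ F : Finset {z : GaussianInt // Irreducible z},
        (∀ z ∈ F, z.1.re ^ 2 + z.1.im ^ 2 ≤ (R : ℤ) ^ 2 ∧
          {w | (moatGraph D).Reachable z w}.Infinite) →
        (F.card : ℝ) ≤ (R : ℝ) ^ 2 * Real.exp (-(c * Real.log R / Real.log (Real.log R)))) ∧
      (∃ F : Finset {z : GaussianInt // Irreducible z},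
        (F.card : ℝ) ≤ (R : ℝ) * Real.exp (-(c * Real.log R / Real.log (Real.log R))) ∧
        (∀ x ∈ F, (R : ℤ) ^ 2 ≤ x.1.re ^ 2 + x.1.im ^ 2 ∧
          x.1.re ^ 2 + x.1.im ^ 2 < (2 * (R : ℤ)) ^ 2) ∧
        ∀ u v : {z : GaussianInt // Irreducible z},
          u.1.re ^ 2 + u.1.im ^ 2 ≤ (R : ℤ) ^ 2 → (4 * (R : ℤ)) ^ 2 ≤ v.1.re ^ 2 + v.1.im ^ 2 →
          ∀ p : (moatGraph D).Walk u v, ∃ x ∈ p.support, x ∈ F) :=
  main_thm D hD
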